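import Vale.Agent.P166.Functional

open MeasureTheory Filter
open scoped Topology

namespace Vale.Agent.P166

/-- ramp from `t` to `t + η` -/
noncomputable def ramp (t η : ℝ) : BoundedContinuousFunction ℝ ℝ :=
  BoundedContinuousFunction.ofNormedAddCommGroup (fun x => max 0 (min 1 ((x - t) / η))) (by fun_prop) 1
    fun x => by
      rw [Real.norm_eq_abs, abs_of_nonneg (le_max_left _ _)]
      exact max_le zero_le_one (min_le_left _ _)

lemma ramp_apply (t η x : ℝ) : ramp t η x = max 0 (min 1 ((x - t) / η)) := rfl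

lemma ramp_nonneg (t η x : ℝ) : 0 ≤ ramp t η x := le_max_left _ _

lemma ramp_le_one (t η x : ℝ) : ramp t η x ≤ 1 := max_le zero_le_one (min_le_left _ _)

lemma ramp_eq_zero {t η x : ℝ} (hη : 0 < η) (h : x ≤ t) : ramp t η x = 0 := by
  rw [ramp_apply, max_eq_left]
  exact (min_le_right _ _).trans (div_nonpos_of_nonpos_of_nonneg (by linarith) hη.le)

lemma ramp_eq_one {t η x : ℝ} (hη : 0 < η) (h : t + η ≤ x) : ramp t η x = 1 := by
  rw [ramp_apply, min_eq_left ((le_div_iff₀ hη).2 (by linarith)), max_eq_right zero_le_one]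

variable {N : ℕ}

lemma sum_ramp_le_card {t η : ℝ} (hη : 0 < η) (v : Fin N → ℝ) :
    ∑ k, ramp t η (v k) ≤ ((Finset.univ.filter fun k => t < v k).card : ℝ) := by
  rw [← Finset.sum_boole]
  refine Finset.sum_le_sum fun k _ => ?_
  split
  · exact ramp_le_one _ _ _
  · exact (ramp_eq_zero hη (by linarith)).le

lemma card_jump_le {t η : ℝ} (hη : 0 < η) (v w : Fin N → ℝ) (hv : Monotone v) (hw : Monotone w) :
    ((Finset.univ.filter fun k => v k ≤ t ∧ t + η ≤ w k).card : ℝ) ≤
      |∑ k, ramp t η (w k) - ∑ k, ramp t η (v k)| := by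
  set A := Finset.univ.filter fun k => v k ≤ t ∧ t + η ≤ w k
  rcases A.eq_empty_or_nonempty with hA | ⟨k0, hk0⟩
  · simp [hA]
  obtain ⟨h1, h2⟩ := (Finset.mem_filter.1 hk0).2
  have hsub : ∀ k, t < v k → t + η ≤ w k := fun k hk => by
    rcases le_total k k0 with h | h
    · linarith [hv h]
    · linarith [hw h]
  refine le_trans ?_ (le_abs_self _)
  rw [← Finset.sum_sub_distrib, ← Finset.sum_boole]
  refine Finset.sum_le_sum fun k _ => ?_
  split
  next h => rw [ramp_eq_one hη h.2, ramp_eq_zero hη h.1]; norm_num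
  next h =>
    by_cases hk : t < v k
    · rw [ramp_eq_one hη (hsub k hk)]; linarith [ramp_le_one t η (v k)]
    · rw [ramp_eq_zero hη (le_of_not_gt hk)]; linarith [ramp_nonneg t η (w k)]

lemma sum_ramp_perm (t η : ℝ) (v : Fin N → ℝ) (τ : Equiv.Perm (Fin N)) :
    ∑ k, ramp t η ((v ∘ τ) k) = ∑ k, ramp t η (v k) :=
  Equiv.sum_comp τ fun k => ramp t η (v k)

variable {ν : Measure (Mat N)}

/-- One-sided comparison: quantiles, plus block averaging near the top edge. -/
lemma Phi_compare_sorted (hν : IsHaarOrthogonal ν) (hN : 0 < N) {β : ℝ} (hβ : 0 ≤ β) (n : ℕ)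
    {v w : Fin N → ℝ} (hv : Monotone v) (hw : Monotone w) {L b δ c : ℝ} (hδ : 0 < δ) (hc : 0 < c) (m : ℕ)
    (hm : 2 * L ≤ m * (δ / 2)) (hLv : ∀ k, |v k| ≤ L) (hLw : ∀ k, |w k| ≤ L) (hb : |b| ≤ L)
    (hwb : ∀ k, w k ≤ b + δ) (htop : c * N ≤ ∑ k, ramp (b - δ) (δ / 2) (v k))
    (hmatch : (∑ i ∈ Finset.range (m + 1),
      |∑ k, ramp (-L + i * (δ / 2)) (δ / 2) (w k) - ∑ k, ramp (-L + i * (δ / 2)) (δ / 2) (v k)|) * (3 * L + δ)
        ≤ δ * (c * N)) :
    Phi ν β n w ≤ Real.exp (n * (β * (3 * δ) / 2)) * Phi ν β n v := by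
  classical
  set η := δ / 2 with hη
  have hη0 : 0 < η := by positivity
  set t := fun i : ℕ => -L + (i : ℝ) * η
  set Ei := fun i : ℕ => Finset.univ.filter fun k => v k ≤ t i ∧ t i + η ≤ w k
  set E := Finset.univ.filter fun k => v k + δ < w k
  have hEsub : E ⊆ (Finset.range (m + 1)).biUnion Ei := fun k hk => by
    have hk' := (Finset.mem_filter.1 hk).2
    set i := ⌈(v k + L) / η⌉₊
    have h0 : 0 ≤ v k + L := by linarith [(abs_le.1 (hLv k)).1]
    have h1 : (v k + L) / η ≤ i := Nat.le_ceil _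
    have h2 : (i : ℝ) < (v k + L) / η + 1 := Nat.ceil_lt_add_one (by positivity)
    rw [div_le_iff₀ hη0] at h1
    have h2' : (i : ℝ) * η ≤ v k + L + η := by
      have := mul_le_mul_of_nonneg_right h2.le hη0.le
      rw [add_mul, div_mul_cancel₀ _ hη0.ne', one_mul] at this
      exact this
    have him : i ≤ m := Nat.ceil_le.2 (by
      rw [div_le_iff₀ hη0]
      linarith [(abs_le.1 (hLv k)).2])
    refine Finset.mem_biUnion.2 ⟨i, Finset.mem_range.2 (by omega), Finset.mem_filter.2 ⟨Finset.mem_univ _, ?_, ?_⟩⟩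
    · simp only [t]; linarith
    · simp only [t, hη] at h2' ⊢; linarith
  set Dsum := ∑ i ∈ Finset.range (m + 1), |∑ k, ramp (t i) η (w k) - ∑ k, ramp (t i) η (v k)|
  have hEcard : (E.card : ℝ) ≤ Dsum := by
    refine le_trans ?_ (Finset.sum_le_sum fun i _ => card_jump_le hη0 v w hv hw)
    calc (E.card : ℝ) ≤ (((Finset.range (m + 1)).biUnion Ei).card : ℝ) := by
          exact_mod_cast Finset.card_le_card hEsub
      _ ≤ _ := by exact_mod_cast Finset.card_biUnion_le
  set T := Finset.univ.filter fun k => b - δ < v k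
  set B := E ∪ T
  have hT : c * N ≤ (T.card : ℝ) := htop.trans (sum_ramp_le_card hη0 v)
  have hBpos : B.Nonempty := by
    have : (0 : ℝ) < T.card := lt_of_lt_of_le (by positivity) hT
    exact (Finset.card_pos.1 (by exact_mod_cast this)).mono Finset.subset_union_right
  have hBc : (0 : ℝ) < B.card := by exact_mod_cast hBpos.card_pos
  set a := (∑ j ∈ B, v j) / B.card with ha
  have hL0 : 0 ≤ L := (abs_nonneg _).trans hb
  have hav : b - 2 * δ ≤ a := by
    rw [ha, le_div_iff₀ hBc]
    have hpt : ∀ j ∈ B, (b - δ) - (if j ∈ E then 3 * L + δ else 0) ≤ v j := fun j hj => by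
      split
      · linarith [(abs_le.1 (hLv j)).1, (abs_le.1 hb).2]
      next h =>
        have : j ∈ T := (Finset.mem_union.1 hj).resolve_left h
        linarith [(Finset.mem_filter.1 this).2]
    have h1 := Finset.sum_le_sum hpt
    rw [Finset.sum_sub_distrib, Finset.sum_const, nsmul_eq_mul, Finset.sum_ite_mem,
      Finset.inter_eq_right.2 Finset.subset_union_left, Finset.sum_const, nsmul_eq_mul] at h1
    have h2 : (E.card : ℝ) * (3 * L + δ) ≤ δ * B.card := by
      refine (mul_le_mul_of_nonneg_right hEcard (by linarith)).trans (hmatch.trans ?_)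
      refine mul_le_mul_of_nonneg_left (hT.trans ?_) hδ.le
      exact_mod_cast Finset.card_le_card (Finset.subset_union_right (s₁ := E) (s₂ := T))
    linarith
  set u := fun k => if k ∈ B then a else v k
  have hwu : ∀ k, w k ≤ u k + 3 * δ := fun k => by
    simp only [u]; split
    · linarith [hwb k]
    next h =>
      have : k ∉ E := fun hE => h (Finset.mem_union_left _ hE)
      have : w k ≤ v k + δ := le_of_not_gt fun hlt => this (Finset.mem_filter.2 ⟨Finset.mem_univ _, hlt⟩)
      linarith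
  calc Phi ν β n w ≤ Phi ν β n (fun k => u k + 3 * δ) := Phi_mono hν hN hβ n hwu
    _ = Real.exp (n * (β * (3 * δ) / 2)) * Phi ν β n u := Phi_shift hν hN β _ n u
    _ ≤ _ := mul_le_mul_of_nonneg_left (Phi_block hν hN hβ n v B hBpos) (Real.exp_pos _).le

lemma edge_data {μ : Measure ℝ} [IsProbabilityMeasure μ] (hμ : IsCompact μ.support)
    {lam : ∀ N : ℕ, Fin N → ℝ} (h : Admissible μ lam) :
    ∀ᶠ N : ℕ in atTop, ∀ k, |lam N k| ≤ |sSup μ.support| + |sInf μ.support| + 1 := by
  have h1 := h.2.1.eventually (eventually_le_nhds (show sSup μ.support < sSup μ.support + 1 by linarith))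
  have h2 := h.2.2.eventually (eventually_ge_nhds (show sInf μ.support - 1 < sInf μ.support by linarith))
  filter_upwards [h1, h2] with N h1 h2 k
  have a1 : lam N k ≤ ⨆ k, lam N k := le_ciSup (Set.finite_range _).bddAbove k
  have a2 : ⨅ k, lam N k ≤ lam N k := ciInf_le (Set.finite_range _).bddBelow k
  rw [abs_le]
  constructor <;>
    linarith [le_abs_self (sSup μ.support), neg_abs_le (sInf μ.support), abs_nonneg (sInf μ.support),
      abs_nonneg (sSup μ.support)]

lemma support_nonempty {μ : Measure ℝ} [IsProbabilityMeasure μ] : μ.support.Nonempty := by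
  rw [Set.nonempty_iff_ne_empty]
  intro he
  have := Measure.support_mem_ae (μ := μ)
  rw [he, mem_ae_iff, Set.compl_empty, measure_univ] at this
  exact one_ne_zero this

lemma integral_top_pos {μ : Measure ℝ} [IsProbabilityMeasure μ] (hμ : IsCompact μ.support)
    {δ : ℝ} (hδ : 0 < δ) : 0 < ∫ x, ramp (sSup μ.support - δ) (δ / 2) x ∂μ := by
  set b := sSup μ.support
  have hb : b ∈ μ.support := hμ.sSup_mem support_nonempty
  rw [integral_pos_iff_support_of_nonneg (fun x => ramp_nonneg _ _ x) (BoundedContinuousFunction.integrable μ _)]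
  have hpos := (Measure.mem_support_iff_forall b).1 hb (Set.Ioi (b - δ / 2)) (Ioi_mem_nhds (by linarith))
  refine lt_of_lt_of_le hpos (measure_mono fun x hx => ?_)
  simp only [Function.mem_support, Set.mem_Ioi] at hx ⊢
  rw [ramp_eq_one (by linarith) (by linarith)]
  norm_num

lemma Phi_compare {μ : Measure ℝ} [IsProbabilityMeasure μ] (hμ : IsCompact μ.support)
    {lam lam' : ∀ N : ℕ, Fin N → ℝ} (h : Admissible μ lam) (h' : Admissible μ lam')
    {β : ℝ} (hβ : 0 ≤ β) (n : ℕ) {ν : ∀ N, Measure (Mat N)} (hν : ∀ N, IsHaarOrthogonal (ν N))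
    {δ : ℝ} (hδ : 0 < δ) :
    ∀ᶠ N : ℕ in atTop, Phi (ν N) β n (lam' N) ≤ Real.exp (n * (β * (3 * δ) / 2)) * Phi (ν N) β n (lam N) := by
  set b := sSup μ.support with hb
  set L := |b| + |sInf μ.support| + 1
  set η := δ / 2 with hη
  set c := (∫ x, ramp (b - δ) η x ∂μ) / 2
  have hc : 0 < c := div_pos (integral_top_pos hμ hδ) two_pos
  set m := ⌈2 * L / η⌉₊
  have hm : 2 * L ≤ m * η := (div_le_iff₀ (by positivity)).1 (Nat.le_ceil _)
  have e1 := (h.1 (ramp (b - δ) η)).eventually
    (eventually_ge_nhds (show c < ∫ x, ramp (b - δ) η x ∂μ by simp only [c] at hc ⊢; linarith))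
  have e2 : Tendsto (fun N : ℕ => (∑ i ∈ Finset.range (m + 1),
      |(∑ k, ramp (-L + i * η) η (lam' N k)) / (N : ℝ) - (∑ k, ramp (-L + i * η) η (lam N k)) / N|) * (3 * L + δ))
      atTop (𝓝 0) := by
    have : Tendsto (fun N : ℕ => ∑ i ∈ Finset.range (m + 1),
        |(∑ k, ramp (-L + i * η) η (lam' N k)) / (N : ℝ) - (∑ k, ramp (-L + i * η) η (lam N k)) / N|)
        atTop (𝓝 0) := by
      simpa using tendsto_finsetSum (Finset.range (m + 1)) fun i _ =>
        ((h'.1 (ramp (-L + i * η) η)).sub (h.1 (ramp (-L + i * η) η))).abs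
    simpa using this.mul_const (3 * L + δ)
  filter_upwards [eventually_gt_atTop 0, edge_data hμ h, edge_data hμ h', e1,
    e2.eventually (eventually_le_nhds (show (0:ℝ) < δ * c by positivity)),
    h'.2.1.eventually (eventually_le_nhds (show b < b + δ by linarith))] with N hN hLv hLw h1 h2 h3
  have hN' : (0:ℝ) < N := by exact_mod_cast hN
  rw [← Phi_perm (hν N) β n (lam N) (Tuple.sort (lam N)), ← Phi_perm (hν N) β n (lam' N) (Tuple.sort (lam' N))]
  refine Phi_compare_sorted (hν N) hN hβ n (Tuple.monotone_sort _) (Tuple.monotone_sort _) (L := L) (b := b)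
    hδ hc m hm (fun k => hLv _) (fun k => hLw _) ?_ (fun k => ?_) ?_ ?_
  · simp only [L]; linarith [abs_nonneg (sInf μ.support)]
  · exact (le_ciSup (f := lam' N) (Set.finite_range _).bddAbove (Tuple.sort (lam' N) k)).trans h3
  · rw [sum_ramp_perm]; exact (le_div_iff₀ hN').1 h1
  · simp only [sum_ramp_perm]
    simp only [← sub_div, abs_div, abs_of_pos hN', ← Finset.sum_div] at h2
    rw [div_mul_eq_mul_div, div_le_iff₀ hN'] at h2
    linarith

/-- The exponential moments asymptotically agree. -/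
lemma Phi_diff {μ : Measure ℝ} [IsProbabilityMeasure μ] (hμ : IsCompact μ.support)
    {lam lam' : ∀ N : ℕ, Fin N → ℝ} (h : Admissible μ lam) (h' : Admissible μ lam')
    {β : ℝ} (hβ : 0 ≤ β) (n : ℕ) {ν : ∀ N, Measure (Mat N)} (hν : ∀ N, IsHaarOrthogonal (ν N)) :
    Tendsto (fun N : ℕ => Phi (ν N) β n (lam' N) - Phi (ν N) β n (lam N)) atTop (𝓝 0) := by
  set L := |sSup μ.support| + |sInf μ.support| + 1
  set R := Real.exp (n * (β * L / 2)) with hR
  rw [Metric.tendsto_nhds]
  intro ε hε
  have lim : Tendsto (fun δ : ℝ => (Real.exp (n * (β * (3 * δ) / 2)) - 1) * R) (𝓝[>] 0) (𝓝 0) := by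
    have h0 : Continuous fun δ : ℝ => (Real.exp (n * (β * (3 * δ) / 2)) - 1) * R := by fun_prop
    simpa using (h0.tendsto 0).mono_left nhdsWithin_le_nhds
  obtain ⟨δ, hδl, hδ⟩ := ((lim.eventually (eventually_lt_nhds hε)).and self_mem_nhdsWithin).exists
  have hδ0 : (0:ℝ) < δ := hδ
  filter_upwards [eventually_gt_atTop 0, edge_data hμ h, edge_data hμ h', Phi_compare hμ h h' hβ n hν hδ0,
    Phi_compare hμ h' h hβ n hν hδ0] with N hN hL hL' h1 h2
  have bound : ∀ v : Fin N → ℝ, (∀ k, |v k| ≤ L) → Phi (ν N) β n v ≤ R ∧ 0 ≤ Phi (ν N) β n v := by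
    intro v hv
    have := (hν N).1
    refine ⟨?_, integral_nonneg fun U => (Real.exp_pos _).le⟩
    calc Phi (ν N) β n v ≤ ∫ _U, R ∂ν N := by
          refine integral_mono_ae (integrable_of_continuous (hν N) hN hβ v (φ := fun x => Real.exp ((n:ℝ) * x))
            (by fun_prop)) (integrable_const _) ((hν N).2.1.mono fun U hU => ?_)
          exact Real.exp_le_exp.2 (mul_le_mul_of_nonneg_left (abs_le.1 (abs_pressure_le hN hβ hv hU)).2
            (Nat.cast_nonneg n))
      _ = R := by simp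
  have hone : 0 ≤ Real.exp (n * (β * (3 * δ) / 2)) - 1 := by
    have : 0 ≤ (n:ℝ) * (β * (3 * δ) / 2) := by positivity
    linarith [Real.one_le_exp this]
  obtain ⟨a1, -⟩ := bound _ hL
  obtain ⟨a2, -⟩ := bound _ hL'
  rw [Real.dist_eq, sub_zero, abs_lt]
  constructor <;> linarith [mul_le_mul_of_nonneg_left a1 hone, mul_le_mul_of_nonneg_left a2 hone]

lemma phi_diff {μ : Measure ℝ} [IsProbabilityMeasure μ] (hμ : IsCompact μ.support)
    {lam lam' : ∀ N : ℕ, Fin N → ℝ} (h : Admissible μ lam) (h' : Admissible μ lam')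
    {β : ℝ} (hβ : 0 ≤ β) {ν : ∀ N, Measure (Mat N)} (hν : ∀ N, IsHaarOrthogonal (ν N))
    {φ : ℝ → ℝ} (hφ : Continuous φ) :
    Tendsto (fun N : ℕ => ∫ U, φ (pressure β (lam' N) U) ∂ν N - ∫ U, φ (pressure β (lam N) U) ∂ν N)
      atTop (𝓝 0) := by
  set L := |sSup μ.support| + |sInf μ.support| + 1
  set R := β * L / 2
  rw [Metric.tendsto_nhds]
  intro ε hε
  obtain ⟨p, hp⟩ := exists_polynomial_near_of_continuousOn (Real.exp (-R)) (Real.exp R) (fun z => φ (Real.log z))
    (hφ.comp_continuousOn (Real.continuousOn_log.mono fun z hz => ne_of_gt (lt_of_lt_of_le (Real.exp_pos _) hz.1)))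
    (ε / 4) (by linarith)
  have hlim : Tendsto (fun N : ℕ => ∑ i ∈ Finset.range (p.natDegree + 1),
      p.coeff i * (Phi (ν N) β i (lam' N) - Phi (ν N) β i (lam N))) atTop (𝓝 0) := by
    simpa using tendsto_finsetSum (Finset.range (p.natDegree + 1)) fun i _ =>
      (Phi_diff hμ h h' hβ i hν).const_mul (p.coeff i)
  filter_upwards [eventually_gt_atTop 0, edge_data hμ h, edge_data hμ h',
    Metric.tendsto_nhds.1 hlim (ε / 4) (by linarith)] with N hN hL hL' hd
  rw [Real.dist_eq, sub_zero] at hd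
  have := (hν N).1
  have approx : ∀ v : Fin N → ℝ, (∀ k, |v k| ≤ L) →
      |∫ U, φ (pressure β v U) ∂ν N - ∑ i ∈ Finset.range (p.natDegree + 1), p.coeff i * Phi (ν N) β i v| ≤ ε / 4 := by
    intro v hv
    have hi : ∀ i, Integrable (fun U => p.coeff i * Real.exp ((i:ℝ) * pressure β v U)) (ν N) := fun i =>
      integrable_of_continuous (hν N) hN hβ v (φ := fun x => p.coeff i * Real.exp ((i:ℝ) * x)) (by fun_prop)
    have e : ∑ i ∈ Finset.range (p.natDegree + 1), p.coeff i * Phi (ν N) β i v =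
        ∫ U, p.eval (Real.exp (pressure β v U)) ∂ν N := by
      simp only [Phi, ← integral_const_mul]
      rw [← integral_finsetSum _ fun i _ => hi i]
      congr 1; funext U
      rw [Polynomial.eval_eq_sum_range]
      simp [Real.exp_nat_mul]
    rw [e, ← integral_sub (integrable_of_continuous (hν N) hN hβ v hφ)
      (integrable_of_continuous (hν N) hN hβ v (φ := fun x => p.eval (Real.exp x))
        ((Polynomial.continuous p).comp Real.continuous_exp)), ← Real.norm_eq_abs]
    refine (norm_integral_le_of_norm_le_const (C := ε / 4) ((hν N).2.1.mono fun U hU => ?_)).trans_eq (by simp)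
    have hb := abs_le.1 (abs_pressure_le hN hβ hv hU)
    have := hp (Real.exp (pressure β v U)) ⟨Real.exp_le_exp.2 hb.1, Real.exp_le_exp.2 hb.2⟩
    rw [Real.log_exp, abs_sub_comm] at this
    rw [Real.norm_eq_abs]; exact this.le
  have a1 := abs_le.1 (approx _ hL)
  have a2 := abs_le.1 (approx _ hL')
  simp only [mul_sub, Finset.sum_sub_distrib] at hd
  have hd' := abs_lt.1 hd
  rw [Real.dist_eq, sub_zero, abs_lt]
  constructor <;> linarith

lemma prob_transfer {μ : Measure ℝ} [IsProbabilityMeasure μ] (hμ : IsCompact μ.support)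
    {lam lam' : ∀ N : ℕ, Fin N → ℝ} (h : Admissible μ lam) (h' : Admissible μ lam')
    {β : ℝ} (hβ : 0 ≤ β) {ν : ∀ N, Measure (Mat N)} (hν : ∀ N, IsHaarOrthogonal (ν N)) {p : ℝ}
    (hp : ∀ ε : ℝ, 0 < ε → Tendsto (fun N : ℕ => (ν N).real {U | ε ≤ |pressure β (lam N) U - p|}) atTop (𝓝 0))
    {ε : ℝ} (hε : 0 < ε) :
    Tendsto (fun N : ℕ => (ν N).real {U | ε ≤ |pressure β (lam' N) U - p|}) atTop (𝓝 0) := by
  set φ := fun x : ℝ => min |x - p| ε
  have hφ : Continuous φ := by fun_prop
  have hφ0 : ∀ x, 0 ≤ φ x := fun x => le_min (abs_nonneg _) hε.le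
  have hms : ∀ (N : ℕ) (v : Fin N → ℝ) (s : ℝ), MeasurableSet {U | s ≤ |pressure β v U - p|} := fun N v s =>
    measurableSet_le measurable_const (((measurable_pressure β v).sub_const p).norm)
  have h0 : Tendsto (fun N : ℕ => ∫ U, φ (pressure β (lam N) U) ∂ν N) atTop (𝓝 0) := by
    rw [Metric.tendsto_nhds]
    intro e he
    filter_upwards [eventually_gt_atTop 0,
      ((hp (e / 2) (by linarith)).const_mul ε).eventually (eventually_lt_nhds (show ε * 0 < e / 2 by linarith))]
      with N hN hlt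
    have := (hν N).1
    rw [Real.dist_eq, sub_zero, abs_of_nonneg (integral_nonneg fun U => hφ0 _)]
    calc ∫ U, φ (pressure β (lam N) U) ∂ν N
        ≤ ∫ U, (e / 2 + {U | e / 2 ≤ |pressure β (lam N) U - p|}.indicator (fun _ => ε) U) ∂ν N := by
          refine integral_mono (integrable_of_continuous (hν N) hN hβ _ hφ)
            ((integrable_const _).add ((integrable_const ε).indicator (hms N _ _))) fun U => ?_
          by_cases hU : U ∈ {U | e / 2 ≤ |pressure β (lam N) U - p|}
          · rw [Set.indicator_of_mem hU]; exact (min_le_right _ _).trans (by linarith)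
          · rw [Set.indicator_of_notMem hU]
            have : |pressure β (lam N) U - p| < e / 2 := not_le.1 hU
            exact (min_le_left _ _).trans (by linarith)
      _ = e / 2 + ε * (ν N).real {U | e / 2 ≤ |pressure β (lam N) U - p|} := by
          rw [integral_add (integrable_const _) ((integrable_const ε).indicator (hms N _ _)),
            integral_indicator_const _ (hms N _ _)]
          simp [mul_comm]
      _ < e := by linarith
  have h1 : Tendsto (fun N : ℕ => (∫ U, φ (pressure β (lam' N) U) ∂ν N) / ε) atTop (𝓝 0) := by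
    have := ((phi_diff hμ h h' hβ hν hφ).add h0).div_const ε
    simpa using this
  refine squeeze_zero' (Eventually.of_forall fun N => measureReal_nonneg) ?_ h1
  filter_upwards [eventually_gt_atTop 0] with N hN
  have := (hν N).1
  rw [le_div_iff₀ hε]
  calc (ν N).real {U | ε ≤ |pressure β (lam' N) U - p|} * ε
      = ∫ U, {U | ε ≤ |pressure β (lam' N) U - p|}.indicator (fun _ => ε) U ∂ν N := by
        rw [integral_indicator_const _ (hms N _ _), smul_eq_mul]
    _ ≤ _ := by
        refine integral_mono ((integrable_const ε).indicator (hms N _ _))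
          (integrable_of_continuous (hν N) hN hβ _ hφ) fun U => ?_
        by_cases hU : U ∈ {U | ε ≤ |pressure β (lam' N) U - p|}
        · rw [Set.indicator_of_mem hU]; exact le_min hU le_rfl
        · rw [Set.indicator_of_notMem hU]; exact hφ0 _

end Vale.Agent.P166
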