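import Mathlib

open MeasureTheory Filter
open scoped Topology

namespace Vale.Agent.P166

/-- Real `N × N` arrays. -/
abbrev Mat (N : ℕ) := Fin N → Fin N → ℝ

/-- Haar probability measure of the orthogonal group `O(N)`, seen as a measure on all arrays:
a probability measure carried by `O(N)` and invariant under left multiplication by `O(N)`. -/
def IsHaarOrthogonal {N : ℕ} (ν : Measure (Mat N)) : Prop :=
  IsProbabilityMeasure ν ∧
    (∀ᵐ U ∂ν, Matrix.of U ∈ Matrix.orthogonalGroup (Fin N) ℝ) ∧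
    ∀ O : Mat N, Matrix.of O ∈ Matrix.orthogonalGroup (Fin N) ℝ →
      ν.map (fun U i j => ∑ k, O i k * U k j) = ν

/-- Ising spin: `true ↦ 1`, `false ↦ -1`. -/
def spin (b : Bool) : ℝ := if b then 1 else -1

/-- The pressure `P_N(β)` of the coupling matrix `J = Uᵀ diag(lam) U`, uniform spin prior,
diagonal terms included. -/
noncomputable def pressure {N : ℕ} (β : ℝ) (lam : Fin N → ℝ) (U : Mat N) : ℝ :=
  (1 / (N : ℝ)) * Real.log (((2 : ℝ) ^ N)⁻¹ * ∑ σ : Fin N → Bool,
    Real.exp (β / 2 * ∑ i, ∑ j, spin (σ i) * (∑ k, U k i * lam k * U k j) * spin (σ j)))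

/-- The hypotheses on the spectra: weak convergence of the empirical laws to `μ` and convergence of
the largest and the smallest eigenvalue to the edges of the support of `μ`. -/
def Admissible (μ : Measure ℝ) (lam : ∀ N : ℕ, Fin N → ℝ) : Prop :=
  (∀ g : BoundedContinuousFunction ℝ ℝ,
    Tendsto (fun N : ℕ => (∑ k, g (lam N k)) / (N : ℝ)) atTop (𝓝 (∫ x, g x ∂μ))) ∧
  Tendsto (fun N : ℕ => ⨆ k, lam N k) atTop (𝓝 (sSup μ.support)) ∧
  Tendsto (fun N : ℕ => ⨅ k, lam N k) atTop (𝓝 (sInf μ.support))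

end Vale.Agent.P166
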