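import Vale.Agent.P166.Haar

open MeasureTheory Real

namespace Vale.Agent.P166

variable {N : ℕ}

/-- overlap of the spin configuration with the `k`-th row -/
noncomputable def field (U : Mat N) (σ : Fin N → Bool) (k : Fin N) : ℝ := ∑ i, U k i * spin (σ i)

/-- the Hamiltonian in diagonal form -/
noncomputable def energy (β : ℝ) (lam : Fin N → ℝ) (U : Mat N) (σ : Fin N → Bool) : ℝ :=
  β / 2 * ∑ k, lam k * field U σ k ^ 2

lemma energy_eq (β : ℝ) (lam : Fin N → ℝ) (U : Mat N) (σ : Fin N → Bool) :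
    β / 2 * ∑ i, ∑ j, spin (σ i) * (∑ k, U k i * lam k * U k j) * spin (σ j) = energy β lam U σ := by
  unfold energy field
  congr 1
  simp only [Finset.mul_sum, Finset.sum_mul, sq]
  conv_rhs => rw [Finset.sum_comm]; arg 2; ext a; rw [Finset.sum_comm]
  rw [Finset.sum_comm]
  exact Finset.sum_congr rfl fun i _ => Finset.sum_congr rfl fun j _ => Finset.sum_congr rfl fun k _ => by ring

lemma pressure_eq (β : ℝ) (lam : Fin N → ℝ) (U : Mat N) :
    pressure β lam U =
      (1 / (N : ℝ)) * Real.log (((2 : ℝ) ^ N)⁻¹ * ∑ σ : Fin N → Bool, Real.exp (energy β lam U σ)) := by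
  simp only [pressure, energy_eq]

lemma sum_pos' (h : (Fin N → Bool) → ℝ) : 0 < ∑ σ : Fin N → Bool, Real.exp (h σ) :=
  Finset.sum_pos (fun _ _ => exp_pos _) Finset.univ_nonempty

lemma pressure_mono {β : ℝ} (hβ : 0 ≤ β) {lam lam' : Fin N → ℝ} (h : ∀ k, lam k ≤ lam' k) (U : Mat N) :
    pressure β lam U ≤ pressure β lam' U := by
  simp only [pressure_eq]
  refine mul_le_mul_of_nonneg_left (Real.log_le_log (mul_pos (by positivity) (sum_pos' _)) ?_) (by positivity)
  refine mul_le_mul_of_nonneg_left (Finset.sum_le_sum fun σ _ => exp_le_exp.2 ?_) (by positivity)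
  exact mul_le_mul_of_nonneg_left (Finset.sum_le_sum fun k _ =>
    mul_le_mul_of_nonneg_right (h k) (sq_nonneg _)) (by linarith)

lemma sum_field_sq {U : Mat N} (hU : Matrix.of U ∈ Matrix.orthogonalGroup (Fin N) ℝ) (σ : Fin N → Bool) :
    ∑ k, field U σ k ^ 2 = N := by
  have h := (Matrix.mem_orthogonalGroup_iff' (Fin N) ℝ).1 hU
  have e : ∀ i j, ∑ k, U k i * U k j = if i = j then 1 else 0 := fun i j => by
    have := congrFun (congrFun h i) j
    simpa [Matrix.mul_apply, Matrix.transpose_apply, Matrix.one_apply] using this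
  have hs : ∀ b, spin b * spin b = 1 := fun b => by cases b <;> simp [spin]
  calc ∑ k, field U σ k ^ 2 = ∑ i, ∑ j, (spin (σ i) * spin (σ j)) * ∑ k, U k i * U k j := by
        simp only [field, sq, Finset.sum_mul_sum]
        rw [Finset.sum_comm]
        refine Finset.sum_congr rfl fun i _ => ?_
        rw [Finset.sum_comm]
        refine Finset.sum_congr rfl fun j _ => ?_
        rw [Finset.mul_sum]
        exact Finset.sum_congr rfl fun k _ => by ring
    _ = _ := by simp [e, hs]

lemma pressure_shift (hN : 0 < N) (β c : ℝ) (lam : Fin N → ℝ) {U : Mat N}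
    (hU : Matrix.of U ∈ Matrix.orthogonalGroup (Fin N) ℝ) :
    pressure β (fun k => lam k + c) U = pressure β lam U + β * c / 2 := by
  simp only [pressure_eq]
  have e : ∀ σ, energy β (fun k => lam k + c) U σ = energy β lam U σ + β / 2 * (c * N) := fun σ => by
    unfold energy
    simp only [add_mul, Finset.sum_add_distrib, ← Finset.mul_sum, sum_field_sq hU σ]
    ring
  simp only [e, Real.exp_add, ← Finset.sum_mul]
  have hpos : 0 < ((2 : ℝ) ^ N)⁻¹ * ∑ σ : Fin N → Bool, Real.exp (energy β lam U σ) :=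
    mul_pos (by positivity) (sum_pos' _)
  rw [← mul_assoc, Real.log_mul hpos.ne' (exp_pos _).ne', Real.log_exp]
  have hN' : (N : ℝ) ≠ 0 := by exact_mod_cast hN.ne'
  field_simp

lemma pressure_zero (β : ℝ) (U : Mat N) : pressure β (fun _ : Fin N => (0 : ℝ)) U = 0 := by
  simp [pressure_eq, energy]

lemma abs_pressure_le (hN : 0 < N) {β L : ℝ} (hβ : 0 ≤ β) {lam : Fin N → ℝ} (hL : ∀ k, |lam k| ≤ L)
    {U : Mat N} (hU : Matrix.of U ∈ Matrix.orthogonalGroup (Fin N) ℝ) :
    |pressure β lam U| ≤ β * L / 2 := by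
  have e : ∀ c : ℝ, pressure β (fun _ : Fin N => c) U = β * c / 2 := fun c => by
    have := pressure_shift hN β c (fun _ : Fin N => (0:ℝ)) hU
    rw [pressure_zero] at this
    simpa using this
  rw [abs_le]
  constructor
  · have := pressure_mono hβ (fun k => (abs_le.1 (hL k)).1) U
    rw [e] at this; linarith
  · have := pressure_mono hβ (fun k => (abs_le.1 (hL k)).2) U
    rw [e] at this; linarith

/-- log-sum-exp is convex -/
lemma pressure_avg {ι : Type*} (s : Finset ι) (hs : s.Nonempty) {β : ℝ}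
    (v : ι → Fin N → ℝ) (U : Mat N) :
    pressure β (fun k => (∑ c ∈ s, v c k) / s.card) U ≤ (∑ c ∈ s, pressure β (v c) U) / s.card := by
  have hc : (0:ℝ) < s.card := by exact_mod_cast hs.card_pos
  simp only [pressure_eq]
  rw [← Finset.mul_sum, mul_div_assoc]
  refine mul_le_mul_of_nonneg_left ?_ (by positivity)
  set L := fun c => Real.log (((2:ℝ) ^ N)⁻¹ * ∑ σ : Fin N → Bool, Real.exp (energy β (v c) U σ))
  have hL : ∀ c, Real.exp (L c) = ((2:ℝ) ^ N)⁻¹ * ∑ σ : Fin N → Bool, Real.exp (energy β (v c) U σ) :=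
    fun c => Real.exp_log (mul_pos (by positivity) (sum_pos' _))
  rw [Real.log_le_iff_le_exp (mul_pos (by positivity) (sum_pos' _))]
  have key : ∀ σ, Real.exp (energy β (fun k => (∑ c ∈ s, v c k) / s.card) U σ) ≤
      Real.exp ((∑ c ∈ s, L c) / s.card) *
        ((∑ c ∈ s, Real.exp (energy β (v c) U σ) / Real.exp (L c)) / s.card) := by
    intro σ
    have he : energy β (fun k => (∑ c ∈ s, v c k) / s.card) U σ =
        (∑ c ∈ s, energy β (v c) U σ) / s.card := by
      simp only [energy, Finset.sum_div, ← Finset.mul_sum, mul_div_assoc]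
      rw [Finset.sum_comm]
      exact congrArg _ (Finset.sum_congr rfl fun k _ => by
        rw [Finset.sum_mul]; exact Finset.sum_congr rfl fun c _ => by ring)
    have hj := convexOn_exp.map_sum_le (t := s) (w := fun _ => (s.card : ℝ)⁻¹)
      (p := fun c => energy β (v c) U σ - L c) (fun _ _ => by positivity)
      (by simp [hc.ne']) (fun _ _ => Set.mem_univ _)
    simp only [smul_eq_mul, ← Finset.mul_sum, Finset.sum_sub_distrib, Real.exp_sub] at hj
    have hm := mul_le_mul_of_nonneg_left hj (exp_pos ((∑ c ∈ s, L c) / s.card)).le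
    rw [inv_mul_eq_div, ← Real.exp_add] at hm
    rw [he]
    refine le_of_eq_of_le ?_ (hm.trans_eq (by rw [inv_mul_eq_div]))
    congr 1; ring
  refine (mul_le_mul_of_nonneg_left (Finset.sum_le_sum fun σ _ => key σ) (by positivity)).trans (le_of_eq ?_)
  rw [← Finset.mul_sum, ← Finset.sum_div, Finset.sum_comm]
  simp only [← Finset.sum_div]
  have h1 : ∀ c ∈ s, ((2:ℝ) ^ N)⁻¹ * ((∑ σ : Fin N → Bool, Real.exp (energy β (v c) U σ)) / Real.exp (L c)) = 1 :=
    fun c _ => by rw [← mul_div_assoc, ← hL, div_self (exp_pos _).ne']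
  rw [mul_left_comm, ← mul_div_assoc ((2:ℝ) ^ N)⁻¹, Finset.mul_sum, Finset.sum_congr rfl h1]
  simp [hc.ne', L]

variable {ν : Measure (Mat N)}

lemma measurable_pressure (β : ℝ) (lam : Fin N → ℝ) : Measurable (pressure β lam) := by
  unfold pressure; fun_prop

lemma integrable_of_continuous (hν : IsHaarOrthogonal ν) (hN : 0 < N) {β : ℝ} (hβ : 0 ≤ β) (lam : Fin N → ℝ)
    {φ : ℝ → ℝ} (hφ : Continuous φ) : Integrable (fun U => φ (pressure β lam U)) ν := by
  have := hν.1
  obtain ⟨C, hC⟩ := (isCompact_Icc (a := -(β * (∑ k, |lam k|) / 2)) (b := β * (∑ k, |lam k|) / 2)).exists_bound_of_continuousOn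
    hφ.continuousOn
  refine Integrable.of_bound (hφ.measurable.comp (measurable_pressure β lam)).aestronglyMeasurable C ?_
  filter_upwards [hν.2.1] with U hU
  exact hC _ (abs_le.1 (abs_pressure_le hN hβ
    (fun k => Finset.single_le_sum (f := fun k => |lam k|) (fun _ _ => abs_nonneg _) (Finset.mem_univ k)) hU))

/-- exponential moment -/
noncomputable def Phi (ν : Measure (Mat N)) (β : ℝ) (n : ℕ) (lam : Fin N → ℝ) : ℝ :=
  ∫ U, Real.exp ((n : ℝ) * pressure β lam U) ∂ν

lemma Phi_perm (hν : IsHaarOrthogonal ν) (β : ℝ) (n : ℕ) (lam : Fin N → ℝ) (τ : Equiv.Perm (Fin N)) :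
    Phi ν β n (lam ∘ τ) = Phi ν β n lam := by
  classical
  set O : Mat N := fun i k => if k = τ.symm i then 1 else 0
  have hO : Matrix.of O ∈ Matrix.orthogonalGroup (Fin N) ℝ := by
    rw [Matrix.mem_orthogonalGroup_iff]
    ext i j
    simp [Matrix.mul_apply, O, Matrix.one_apply, eq_comm]
  have hm : Measurable fun (U : Mat N) (i j : Fin N) => ∑ k, O i k * U k j := by fun_prop
  unfold Phi
  conv_rhs => rw [← hν.2.2 O hO]
  rw [integral_map hm.aemeasurable (by
    have := measurable_pressure β lam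
    fun_prop)]
  congr 1; funext U
  congr 2
  simp only [pressure_eq]
  congr 3
  refine Finset.sum_congr rfl fun σ _ => congrArg _ ?_
  simp only [energy, field, O, ite_mul, one_mul, zero_mul, Finset.sum_ite_eq', Finset.mem_univ, if_true,
    Function.comp]
  congr 1
  exact Fintype.sum_equiv τ _ _ fun k => by simp

lemma Phi_mono (hν : IsHaarOrthogonal ν) (hN : 0 < N) {β : ℝ} (hβ : 0 ≤ β) (n : ℕ) {lam lam' : Fin N → ℝ}
    (h : ∀ k, lam k ≤ lam' k) : Phi ν β n lam ≤ Phi ν β n lam' :=
  integral_mono (integrable_of_continuous hν hN hβ lam (φ := fun x => Real.exp ((n:ℝ) * x)) (by fun_prop))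
    (integrable_of_continuous hν hN hβ lam' (φ := fun x => Real.exp ((n:ℝ) * x)) (by fun_prop))
    fun U => exp_le_exp.2 (mul_le_mul_of_nonneg_left (pressure_mono hβ h U) (Nat.cast_nonneg n))

lemma Phi_shift (hν : IsHaarOrthogonal ν) (hN : 0 < N) (β c : ℝ) (n : ℕ) (lam : Fin N → ℝ) :
    Phi ν β n (fun k => lam k + c) = Real.exp (n * (β * c / 2)) * Phi ν β n lam := by
  unfold Phi
  rw [← integral_const_mul]
  refine integral_congr_ae (hν.2.1.mono fun U hU => ?_)
  simp only [pressure_shift hN β c lam hU]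
  rw [mul_add, Real.exp_add, mul_comm]

lemma Phi_avg (hν : IsHaarOrthogonal ν) (hN : 0 < N) {β : ℝ} (hβ : 0 ≤ β) (n : ℕ) {ι : Type*}
    (s : Finset ι) (hs : s.Nonempty) (v : ι → Fin N → ℝ) :
    Phi ν β n (fun k => (∑ c ∈ s, v c k) / s.card) ≤ (∑ c ∈ s, Phi ν β n (v c)) / s.card := by
  have hc : (0:ℝ) < s.card := by exact_mod_cast hs.card_pos
  have hi : ∀ c, Integrable (fun U => Real.exp ((n:ℝ) * pressure β (v c) U)) ν :=
    fun c => integrable_of_continuous hν hN hβ (v c) (φ := fun x => Real.exp ((n:ℝ) * x)) (by fun_prop)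
  unfold Phi
  rw [← integral_finsetSum s (fun c _ => hi c), ← integral_div]
  refine integral_mono (integrable_of_continuous hν hN hβ _ (φ := fun x => Real.exp ((n:ℝ) * x)) (by fun_prop))
    ((integrable_finsetSum s fun c _ => hi c).div_const _) fun U => ?_
  have hj := convexOn_exp.map_sum_le (t := s) (w := fun _ => (s.card : ℝ)⁻¹)
    (p := fun c => (n:ℝ) * pressure β (v c) U) (fun _ _ => by positivity)
    (by simp [hc.ne']) (fun _ _ => Set.mem_univ _)
  simp only [smul_eq_mul] at hj
  simp only [← Finset.mul_sum] at hj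
  simp only [inv_mul_eq_div] at hj
  refine le_trans (exp_le_exp.2 ?_) hj
  rw [mul_div_assoc]
  exact mul_le_mul_of_nonneg_left (pressure_avg s hs v U) (Nat.cast_nonneg n)

/-- Replacing the entries on a block by their mean does not increase `Phi`. -/
lemma Phi_block (hν : IsHaarOrthogonal ν) (hN : 0 < N) {β : ℝ} (hβ : 0 ≤ β) (n : ℕ) (lam : Fin N → ℝ)
    (B : Finset (Fin N)) (hB : B.Nonempty) :
    Phi ν β n (fun k => if k ∈ B then (∑ j ∈ B, lam j) / B.card else lam k) ≤ Phi ν β n lam := by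
  classical
  have : NeZero B.card := ⟨hB.card_pos.ne'⟩
  set e : {x // x ∈ B} ≃ Fin B.card := B.equivFin
  set τ : Fin B.card → Equiv.Perm (Fin N) := fun c =>
    Equiv.Perm.ofSubtype (e.trans ((Equiv.addRight c).trans e.symm))
  have key : (fun k => (∑ c, (lam ∘ τ c) k) / ((Finset.univ : Finset (Fin B.card)).card : ℝ)) =
      fun k => if k ∈ B then (∑ j ∈ B, lam j) / B.card else lam k := by
    funext k
    by_cases hk : k ∈ B
    · rw [if_pos hk]
      have h1 : ∀ c, τ c k = (e.symm (e ⟨k, hk⟩ + c) : Fin N) := fun c => by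
        simp [τ, Equiv.Perm.ofSubtype_apply_of_mem _ hk]
      simp only [Function.comp, h1, Finset.card_univ, Fintype.card_fin]
      congr 1
      rw [← Finset.sum_coe_sort B lam]
      exact Fintype.sum_equiv ((Equiv.addLeft (e ⟨k, hk⟩)).trans e.symm) _ _ fun c => rfl
    · rw [if_neg hk]
      have h1 : ∀ c, τ c k = k := fun c => Equiv.Perm.ofSubtype_apply_of_not_mem _ hk
      have hc : (B.card : ℝ) ≠ 0 := by exact_mod_cast hB.card_pos.ne'
      simp only [Function.comp, h1, Finset.sum_const, Finset.card_univ, Fintype.card_fin, nsmul_eq_mul]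
      field_simp
  have := Phi_avg hν hN hβ n Finset.univ Finset.univ_nonempty (fun c : Fin B.card => lam ∘ τ c)
  rw [key] at this
  simp only [Phi_perm hν] at this
  refine this.trans (le_of_eq ?_)
  have hc : (B.card : ℝ) ≠ 0 := by exact_mod_cast hB.card_pos.ne'
  simp [hc]

end Vale.Agent.P166
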