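import Vale.Agent.P166.Defs

open MeasureTheory

namespace Vale.Agent.P166

variable {N : ℕ}

lemma abs_entry_le {A : Matrix (Fin N) (Fin N) ℝ} (h : A ∈ Matrix.orthogonalGroup (Fin N) ℝ)
    (i j : Fin N) : |A i j| ≤ 1 := by
  have h1 : (A * A.transpose) i i = (1 : Matrix (Fin N) (Fin N) ℝ) i i := by
    rw [(Matrix.mem_orthogonalGroup_iff (Fin N) ℝ).1 h]
  simp only [Matrix.mul_apply, Matrix.transpose_apply, Matrix.one_apply_eq] at h1
  have h2 : A i j * A i j ≤ 1 := h1 ▸ Finset.single_le_sum (f := fun k => A i k * A i k)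
    (fun k _ => mul_self_nonneg _) (Finset.mem_univ j)
  exact (sq_le_one_iff_abs_le_one _).1 (by rw [sq]; exact h2)

lemma compact_orthogonal (N : ℕ) :
    IsCompact ((Matrix.orthogonalGroup (Fin N) ℝ : Submonoid _) : Set (Matrix (Fin N) (Fin N) ℝ)) := by
  have hbox : IsCompact {A : Matrix (Fin N) (Fin N) ℝ | ∀ i j, A i j ∈ Set.Icc (-1:ℝ) 1} := by
    have h1 : IsCompact (Set.univ.pi fun _ : Fin N => Set.univ.pi fun _ : Fin N => Set.Icc (-1:ℝ) 1) :=
      isCompact_univ_pi fun _ => isCompact_univ_pi fun _ => isCompact_Icc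
    have h2 := h1.image (f := fun a : Fin N → Fin N → ℝ => Matrix.of a) (by fun_prop)
    refine h2.of_isClosed_subset ?_ fun A hA => ⟨fun i j => A i j, fun i _ j _ => hA i j, rfl⟩
    simp only [Set.ofPred_forall]
    exact isClosed_iInter fun i => isClosed_iInter fun j => isClosed_Icc.preimage (by fun_prop)
  refine hbox.of_isClosed_subset ?_ fun A hA i j => abs_le.1 (abs_entry_le hA i j)
  have : ((Matrix.orthogonalGroup (Fin N) ℝ : Submonoid _) : Set (Matrix (Fin N) (Fin N) ℝ)) =
      {A | A * A.transpose = 1} := by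
    ext A; exact Matrix.mem_orthogonalGroup_iff (Fin N) ℝ
  rw [this]
  exact isClosed_eq (by fun_prop) continuous_const

theorem exists_haar (N : ℕ) : ∃ ν : Measure (Mat N), IsHaarOrthogonal ν := by
  let G := Matrix.orthogonalGroup (Fin N) ℝ
  letI : MeasurableSpace G := borel G
  haveI : BorelSpace G := ⟨rfl⟩
  haveI : CompactSpace G := isCompact_iff_compactSpace.1 (compact_orthogonal N)
  set μ : Measure G := Measure.haarMeasure (⊤ : TopologicalSpace.PositiveCompacts G) with hμ
  have hp : IsProbabilityMeasure μ := ⟨by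
    have := Measure.haarMeasure_self (K₀ := (⊤ : TopologicalSpace.PositiveCompacts G))
    simpa using this⟩
  let e : G → Mat N := fun A i j => (A : Matrix (Fin N) (Fin N) ℝ) i j
  have hec : Continuous e := by fun_prop
  have he : Measurable e := hec.measurable
  refine ⟨μ.map e, Measure.isProbabilityMeasure_map he.aemeasurable, ?_, fun O hO => ?_⟩
  · have hs : MeasurableSet {U : Mat N | Matrix.of U ∈ Matrix.orthogonalGroup (Fin N) ℝ} := by
      have : {U : Mat N | Matrix.of U ∈ Matrix.orthogonalGroup (Fin N) ℝ} =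
          {U : Mat N | ∀ i j, ∑ k, U i k * U j k = if i = j then 1 else 0} := by
        ext U
        simp only [Set.mem_ofPred_eq, Matrix.mem_orthogonalGroup_iff, ← Matrix.ext_iff, Matrix.mul_apply,
          Matrix.transpose_apply, Matrix.one_apply, Matrix.of_apply]
      rw [this, Set.ofPred_forall]
      refine MeasurableSet.iInter fun i => ?_
      rw [Set.ofPred_forall]
      exact MeasurableSet.iInter fun j => measurableSet_eq_fun (by fun_prop) measurable_const
    exact (ae_map_iff he.aemeasurable hs).2 (Filter.Eventually.of_forall fun A => A.2)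
  · have hm : Measurable fun (U : Mat N) (i j : Fin N) => ∑ k, O i k * U k j := by fun_prop
    rw [Measure.map_map hm he]
    conv_rhs => rw [← map_mul_left_eq_self μ (⟨Matrix.of O, hO⟩ : G), Measure.map_map he (measurable_const_mul _)]
    congr 1

end Vale.Agent.P166
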