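import Vale.Agent.P166.Compare

/-!
Comparison of pressures under weak convergence and control of the upper edge only.
-/

open MeasureTheory Filter
open scoped Topology

namespace Vale.Agent.P166

/-- weak convergence with bounded spectrum and no outliers above the top of the support -/
structure Near (μ : Measure ℝ) (L : ℝ) (lam : ∀ N : ℕ, Fin N → ℝ) : Prop where
  weak : ∀ g : BoundedContinuousFunction ℝ ℝ,
    Tendsto (fun N : ℕ => (∑ k, g (lam N k)) / (N : ℝ)) atTop (𝓝 (∫ x, g x ∂μ))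
  bdd : ∀ᶠ N : ℕ in atTop, ∀ k, |lam N k| ≤ L
  top : ∀ δ : ℝ, 0 < δ → ∀ᶠ N : ℕ in atTop, ∀ k, lam N k ≤ sSup μ.support + δ

lemma Admissible.near {μ : Measure ℝ} [IsProbabilityMeasure μ] (hμ : IsCompact μ.support)
    {lam : ∀ N : ℕ, Fin N → ℝ} (h : Admissible μ lam) :
    Near μ (|sSup μ.support| + |sInf μ.support| + 1) lam where
  weak := h.1
  bdd := edge_data hμ h
  top δ hδ := (h.2.1.eventually (eventually_le_nhds
    (show sSup μ.support < sSup μ.support + δ by linarith))).mono fun N hN k =>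
      (le_ciSup (Set.finite_range _).bddAbove k).trans hN

lemma near_Phi_compare {μ : Measure ℝ} [IsProbabilityMeasure μ] (hμ : IsCompact μ.support)
    {L : ℝ} (hbL : |sSup μ.support| ≤ L) {lam lam' : ∀ N : ℕ, Fin N → ℝ} (h : Near μ L lam) (h' : Near μ L lam')
    {β : ℝ} (hβ : 0 ≤ β) (n : ℕ) {ν : ∀ N, Measure (Mat N)} (hν : ∀ N, IsHaarOrthogonal (ν N))
    {δ : ℝ} (hδ : 0 < δ) :
    ∀ᶠ N : ℕ in atTop, Phi (ν N) β n (lam' N) ≤ Real.exp (n * (β * (3 * δ) / 2)) * Phi (ν N) β n (lam N) := by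
  set b := sSup μ.support with hb
  set η := δ / 2 with hη
  set c := (∫ x, ramp (b - δ) η x ∂μ) / 2
  have hc : 0 < c := div_pos (integral_top_pos hμ hδ) two_pos
  set m := ⌈2 * L / η⌉₊
  have hm : 2 * L ≤ m * η := (div_le_iff₀ (by positivity)).1 (Nat.le_ceil _)
  have e1 := (h.weak (ramp (b - δ) η)).eventually
    (eventually_ge_nhds (show c < ∫ x, ramp (b - δ) η x ∂μ by simp only [c] at hc ⊢; linarith))
  have e2 : Tendsto (fun N : ℕ => (∑ i ∈ Finset.range (m + 1),
      |(∑ k, ramp (-L + i * η) η (lam' N k)) / (N : ℝ) - (∑ k, ramp (-L + i * η) η (lam N k)) / N|) * (3 * L + δ))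
      atTop (𝓝 0) := by
    have : Tendsto (fun N : ℕ => ∑ i ∈ Finset.range (m + 1),
        |(∑ k, ramp (-L + i * η) η (lam' N k)) / (N : ℝ) - (∑ k, ramp (-L + i * η) η (lam N k)) / N|)
        atTop (𝓝 0) := by
      simpa using tendsto_finsetSum (Finset.range (m + 1)) fun i _ =>
        ((h'.weak (ramp (-L + i * η) η)).sub (h.weak (ramp (-L + i * η) η))).abs
    simpa using this.mul_const (3 * L + δ)
  filter_upwards [eventually_gt_atTop 0, h.bdd, h'.bdd, e1,
    e2.eventually (eventually_le_nhds (show (0:ℝ) < δ * c by positivity)),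
    h'.top δ hδ] with N hN hLv hLw h1 h2 h3
  have hN' : (0:ℝ) < N := by exact_mod_cast hN
  rw [← Phi_perm (hν N) β n (lam N) (Tuple.sort (lam N)), ← Phi_perm (hν N) β n (lam' N) (Tuple.sort (lam' N))]
  refine Phi_compare_sorted (hν N) hN hβ n (Tuple.monotone_sort _) (Tuple.monotone_sort _) (L := L) (b := b)
    hδ hc m hm (fun k => hLv _) (fun k => hLw _) ?_ (fun k => ?_) ?_ ?_
  · exact hbL
  · exact h3 _
  · rw [sum_ramp_perm]; exact (le_div_iff₀ hN').1 h1
  · simp only [sum_ramp_perm]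
    simp only [← sub_div, abs_div, abs_of_pos hN', ← Finset.sum_div] at h2
    rw [div_mul_eq_mul_div, div_le_iff₀ hN'] at h2
    linarith

lemma near_Phi_diff {μ : Measure ℝ} [IsProbabilityMeasure μ] (hμ : IsCompact μ.support)
    {L : ℝ} (hbL : |sSup μ.support| ≤ L) {lam lam' : ∀ N : ℕ, Fin N → ℝ} (h : Near μ L lam) (h' : Near μ L lam')
    {β : ℝ} (hβ : 0 ≤ β) (n : ℕ) {ν : ∀ N, Measure (Mat N)} (hν : ∀ N, IsHaarOrthogonal (ν N)) :
    Tendsto (fun N : ℕ => Phi (ν N) β n (lam' N) - Phi (ν N) β n (lam N)) atTop (𝓝 0) := by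
  set R := Real.exp (n * (β * L / 2)) with hR
  rw [Metric.tendsto_nhds]
  intro ε hε
  have lim : Tendsto (fun δ : ℝ => (Real.exp (n * (β * (3 * δ) / 2)) - 1) * R) (𝓝[>] 0) (𝓝 0) := by
    have h0 : Continuous fun δ : ℝ => (Real.exp (n * (β * (3 * δ) / 2)) - 1) * R := by fun_prop
    simpa using (h0.tendsto 0).mono_left nhdsWithin_le_nhds
  obtain ⟨δ, hδl, hδ⟩ := ((lim.eventually (eventually_lt_nhds hε)).and self_mem_nhdsWithin).exists
  have hδ0 : (0:ℝ) < δ := hδ
  filter_upwards [eventually_gt_atTop 0, h.bdd, h'.bdd, near_Phi_compare hμ hbL h h' hβ n hν hδ0,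
    near_Phi_compare hμ hbL h' h hβ n hν hδ0] with N hN hL hL' h1 h2
  have bound : ∀ v : Fin N → ℝ, (∀ k, |v k| ≤ L) → Phi (ν N) β n v ≤ R ∧ 0 ≤ Phi (ν N) β n v := by
    intro v hv
    have := (hν N).1
    refine ⟨?_, integral_nonneg fun U => (Real.exp_pos _).le⟩
    calc Phi (ν N) β n v ≤ ∫ _U, R ∂ν N := by
          refine integral_mono_ae (integrable_of_continuous (hν N) hN hβ v (φ := fun x => Real.exp ((n:ℝ) * x))
            (by fun_prop)) (integrable_const _) ((hν N).2.1.mono fun U hU => ?_)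
          exact Real.exp_le_exp.2 (mul_le_mul_of_nonneg_left (abs_le.1 (abs_pressure_le hN hβ hv hU)).2
            (Nat.cast_nonneg n))
      _ = R := by simp
  have hone : 0 ≤ Real.exp (n * (β * (3 * δ) / 2)) - 1 := by
    have : 0 ≤ (n:ℝ) * (β * (3 * δ) / 2) := by positivity
    linarith [Real.one_le_exp this]
  obtain ⟨a1, -⟩ := bound _ hL
  obtain ⟨a2, -⟩ := bound _ hL'
  rw [Real.dist_eq, sub_zero, abs_lt]
  constructor <;> linarith [mul_le_mul_of_nonneg_left a1 hone, mul_le_mul_of_nonneg_left a2 hone]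

lemma near_phi_diff {μ : Measure ℝ} [IsProbabilityMeasure μ] (hμ : IsCompact μ.support)
    {L : ℝ} (hbL : |sSup μ.support| ≤ L) {lam lam' : ∀ N : ℕ, Fin N → ℝ} (h : Near μ L lam) (h' : Near μ L lam')
    {β : ℝ} (hβ : 0 ≤ β) {ν : ∀ N, Measure (Mat N)} (hν : ∀ N, IsHaarOrthogonal (ν N))
    {φ : ℝ → ℝ} (hφ : Continuous φ) :
    Tendsto (fun N : ℕ => ∫ U, φ (pressure β (lam' N) U) ∂ν N - ∫ U, φ (pressure β (lam N) U) ∂ν N)
      atTop (𝓝 0) := by
  set R := β * L / 2
  rw [Metric.tendsto_nhds]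
  intro ε hε
  obtain ⟨p, hp⟩ := exists_polynomial_near_of_continuousOn (Real.exp (-R)) (Real.exp R) (fun z => φ (Real.log z))
    (hφ.comp_continuousOn (Real.continuousOn_log.mono fun z hz => ne_of_gt (lt_of_lt_of_le (Real.exp_pos _) hz.1)))
    (ε / 4) (by linarith)
  have hlim : Tendsto (fun N : ℕ => ∑ i ∈ Finset.range (p.natDegree + 1),
      p.coeff i * (Phi (ν N) β i (lam' N) - Phi (ν N) β i (lam N))) atTop (𝓝 0) := by
    simpa using tendsto_finsetSum (Finset.range (p.natDegree + 1)) fun i _ =>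
      (near_Phi_diff hμ hbL h h' hβ i hν).const_mul (p.coeff i)
  filter_upwards [eventually_gt_atTop 0, h.bdd, h'.bdd,
    Metric.tendsto_nhds.1 hlim (ε / 4) (by linarith)] with N hN hL hL' hd
  rw [Real.dist_eq, sub_zero] at hd
  have := (hν N).1
  have approx : ∀ v : Fin N → ℝ, (∀ k, |v k| ≤ L) →
      |∫ U, φ (pressure β v U) ∂ν N - ∑ i ∈ Finset.range (p.natDegree + 1), p.coeff i * Phi (ν N) β i v| ≤ ε / 4 := by
    intro v hv
    have hi : ∀ i, Integrable (fun U => p.coeff i * Real.exp ((i:ℝ) * pressure β v U)) (ν N) := fun i =>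
      integrable_of_continuous (hν N) hN hβ v (φ := fun x => p.coeff i * Real.exp ((i:ℝ) * x)) (by fun_prop)
    have e : ∑ i ∈ Finset.range (p.natDegree + 1), p.coeff i * Phi (ν N) β i v =
        ∫ U, p.eval (Real.exp (pressure β v U)) ∂ν N := by
      simp only [Phi, ← integral_const_mul]
      rw [← integral_finsetSum _ fun i _ => hi i]
      congr 1; funext U
      rw [Polynomial.eval_eq_sum_range]
      simp [Real.exp_nat_mul]
    rw [e, ← integral_sub (integrable_of_continuous (hν N) hN hβ v hφ)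
      (integrable_of_continuous (hν N) hN hβ v (φ := fun x => p.eval (Real.exp x))
        ((Polynomial.continuous p).comp Real.continuous_exp)), ← Real.norm_eq_abs]
    refine (norm_integral_le_of_norm_le_const (C := ε / 4) ((hν N).2.1.mono fun U hU => ?_)).trans_eq (by simp)
    have hb := abs_le.1 (abs_pressure_le hN hβ hv hU)
    have := hp (Real.exp (pressure β v U)) ⟨Real.exp_le_exp.2 hb.1, Real.exp_le_exp.2 hb.2⟩
    rw [Real.log_exp, abs_sub_comm] at this
    rw [Real.norm_eq_abs]; exact this.le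
  have a1 := abs_le.1 (approx _ hL)
  have a2 := abs_le.1 (approx _ hL')
  simp only [mul_sub, Finset.sum_sub_distrib] at hd
  have hd' := abs_lt.1 hd
  rw [Real.dist_eq, sub_zero, abs_lt]
  constructor <;> linarith

end Vale.Agent.P166
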